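import Vale.Agent.P167.H825.B4.Side
import Vale.Agent.P167.H825.G.FarJ
import Vale.Agent.P167.QE.Ft

/-!
# P167, general `q`, [BAD], (B4): conflict pairs, `Bad` and two-coloured gaps near the target

Staircase near the target (class `QE.Stair 3`). Before the exit from `[0, T] × [-R, R]` there are no
conflict pairs with the centre near the target, the squares of `Bad` are at a macroscopic distance from
the target, and the only two-coloured components of boxes near the target are those of the boxes which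
contain the target.
-/

set_option autoImplicit false

open MeasureTheory Filter Topology Set Metric Bornology

namespace Vale.Agent.P167.H825.B4

open Vale.Agent.P167.E6 Vale.Agent.P167.E2 Vale.Agent.P167.H411 Vale.Agent.P167.H192
open Vale.Agent.P167.H918 (Loc)
open Vale.Agent.P167.H713.Q (oR Dn Cn Sd tip Cfl Bad)

variable {Φ : (ℝ × ℝ) ≃ₜ (ℝ × ℝ)} {ψ : ℂ → ℂ} {δ : ℕ → ℝ} {N k : ℕ → ℕ}
  {p : ∀ n, ZMod (N n) → ℤ × ℤ} {S : ℕ → Finset (ℤ × ℤ)} {ψn : ℕ → ℂ → ℂ}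

/-- **(B4)** For all histories before the exit: (i) points of a box near the target are joined in the
box, in particular there is no conflict pair with such a centre; (ii) a component in a box near the
target which does not contain the target sees at most one side; (iii) the squares of `Bad` are not near
the target. `m`: macroscopic. -/
theorem b4 (H : Set6 Φ ψ δ N k p S ψn) (hS : QE.Stair 3 Φ δ N k p S) {T R₀ : ℝ} (hT : 0 ≤ T)
    (hR₀ : 0 ≤ R₀) :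
    ∃ m : ℝ, 0 < m ∧ ∀ᶠ n in atTop, ∀ A ∈ (exn δ N k p S ψn n).C,
      ∀ j < (exn δ N k p S ψn n).K A,
      (∀ i < j, (exn δ N k p S ψn n).c A i ≤ T ∧ |(exn δ N k p S ψn n).V A i| ≤ R₀) →
      (∀ (z : ℤ × ℤ) (ρ R : ℕ), (ρ : ℝ) / 2 + 5 ≤ R →
        δ n * (((nm (z - Vale.Agent.P167.H192.ro (p n (k n))) : ℤ) : ℝ) + R) ≤ m →
        ∀ u ∈ Dn (p n) (k n) (S n) A j (δ n), ∀ w ∈ Dn (p n) (k n) (S n) A j (δ n),
          u ∈ oR (δ n) z (ρ / 2) → w ∈ oR (δ n) z (ρ / 2) →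
            w ∈ Cn (p n) (k n) (S n) A j (δ n) z R u) ∧
      (∀ (z : ℤ × ℤ) (ρ R : ℕ), (ρ : ℝ) / 2 + 5 ≤ R →
        δ n * (((nm (z - Vale.Agent.P167.H192.ro (p n (k n))) : ℤ) : ℝ) + R) ≤ m →
        ∀ (c : Bool) (u w : ℂ), ¬ Cfl (p n) (k n) (S n) A j (δ n) c z ρ R u w) ∧
      (∀ (z : ℤ × ℤ) (ρ : ℕ),
        δ n * (((nm (z - Vale.Agent.P167.H192.ro (p n (k n))) : ℤ) : ℝ) + ρ) ≤ m →
        (ρ : ℤ) + 4 < nm (z - Vale.Agent.P167.H192.ro (p n (k n))) → ∀ x : ℂ,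
          Disjoint (Cn (p n) (k n) (S n) A j (δ n) z ρ x) (Sd (p n) (k n) (S n) A j (δ n) true) ∨
          Disjoint (Cn (p n) (k n) (S n) A j (δ n) z ρ x) (Sd (p n) (k n) (S n) A j (δ n) false)) ∧
      ∀ (ρ R : ℕ), (ρ : ℝ) / 2 + 5 ≤ R → ρ ≤ R → ∀ (c : Bool),
        ∀ x ∈ Bad (p n) (k n) (S n) A j (δ n) c ρ R,
          m < δ n * (((nm (x - Vale.Agent.P167.H192.ro (p n (k n))) : ℤ) : ℝ) + 2 * R + 1) := by
  obtain ⟨r, hr, hst⟩ := hS
  obtain ⟨ρb, hρb, hloc⟩ := H918.loc_of H.appr hr (by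
    filter_upwards [hst] with n hn m hm
    have := hn m hm
    exact this)
  obtain ⟨ρf, hρf, hfar⟩ := G.far_bef H hT hR₀
  refine ⟨min (ρb / 2) (ρf / 2), by positivity, ?_⟩
  filter_upwards [hloc, hfar, (Metric.tendsto_nhds.1 H.appr.2.1) (min (ρb / 8) (ρf / 8))
    (by positivity)] with n h1 h2 h3 A hA j hj hb
  obtain ⟨M, hL⟩ := h1
  obtain ⟨hd, -⟩ := H.appr.1 n
  rw [dist_zero_right, Real.norm_of_nonneg hd.le, lt_min_iff] at h3
  obtain ⟨m, hm⟩ : ∃ m, m = min (ρb / 2) (ρf / 2) := ⟨_, rfl⟩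
  rw [← hm]
  have hm1 : m ≤ ρb / 2 := by rw [hm]; exact min_le_left _ _
  have hm2 : m ≤ ρf / 2 := by rw [hm]; exact min_le_right _ _
  have hc : m + 3 * δ n ≤ δ n * ((⌊ρb / δ n⌋ + 2 : ℤ) : ℝ) := by
    have h4 := (Int.lt_floor_add_one (ρb / δ n)).le
    rw [div_le_iff₀ hd] at h4
    push_cast
    nlinarith [h3.1]
  obtain ⟨h5, h6, -⟩ := h2 A hA j hj hb
  have hfar' : ∀ w ∈ pl (p n) (k n) (δ n) A '' Icc 0 (j : ℝ), m < l1 (δ n) (p n (k n)) w := by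
    rintro w ⟨t, ht, rfl⟩
    have h7 := h5 t ht
    have h8 := dist_le_l1 (δ := δ n) (v := p n (k n)) (z := pl (p n) (k n) (δ n) A t)
    linarith
  have hrun : ∀ i ≤ j - 1, m + 2 * δ n <
      l1 (δ n) (p n (k n)) ((δ n : ℂ) * pt (run (p n) (k n) A i).1) := by
    intro i hi
    have h7 := h6 i hi
    have h8 := dist_le_l1 (δ := δ n) (v := p n (k n)) (z := (δ n : ℂ) * pt (run (p n) (k n) A i).1)
    linarith [h3.2]
  have hj1 : ∀ (z : ℤ × ℤ) (ρ R : ℕ), (ρ : ℝ) / 2 + 5 ≤ R →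
      δ n * (((nm (z - Vale.Agent.P167.H192.ro (p n (k n))) : ℤ) : ℝ) + R) ≤ m →
      ∀ u ∈ Dn (p n) (k n) (S n) A j (δ n), ∀ w ∈ Dn (p n) (k n) (S n) A j (δ n),
        u ∈ oR (δ n) z (ρ / 2) → w ∈ oR (δ n) z (ρ / 2) →
          w ∈ Cn (p n) (k n) (S n) A j (δ n) z R u :=
    fun z ρ R hρ hz u hu w hw hu' hw' => joined hL hd hc hfar' hρ hz hu hw hu' hw'
  exact ⟨hj1, fun z ρ R hρ hz c u w hC => hC.nj
      (hj1 z ρ R hρ hz u hC.u_mem w hC.w_mem hC.u_reg hC.w_reg),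
    fun z ρ hz hzb x => one_side hL hd hc hrun hz hzb x,
    fun ρ R hρ hρR c x hx => bad_far hL hd hc hfar' hρ hρR hx⟩

end Vale.Agent.P167.H825.B4
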