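import Vale.Agent.P167.H918.KxA
import Vale.Agent.P167.H713.Q.Bad

/-!
# P167, general `q`, [BAD], (B4): near the target, deterministic part

Near the target (staircase, the path is far away) all points of a box are joined in the box, and the
components see at most one side, unless the box contains the target.
-/

set_option autoImplicit false

open Set Metric

namespace Vale.Agent.P167.H825.B4

open Vale.Agent.P167.E6 Vale.Agent.P167.E2 Vale.Agent.P167.H192
open Vale.Agent.P167.H918 (Loc)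
open Vale.Agent.P167.H713.Q (oR Dn Cn Sd tip Cfl Bad)
open Vale.Agent.P167.H634 (RO LO RX VB FB EB Bx Dm SqD)
open Vale.Agent.P167.Fjord (Wd)

/-- The distance in the coordinates of the squares. -/
def l1 (δ : ℝ) (v : ℤ × ℤ) (z : ℂ) : ℝ := |z.re - δ * v.1| + |z.im - δ * v.2|

theorem abs_add_abs_le {a b c : ℝ} : |a| + |b| ≤ c ↔ |a - b| ≤ c ∧ |a + b| ≤ c := by
  constructor
  · intro h
    exact ⟨(abs_sub a b).trans h, (abs_add_le a b).trans h⟩
  · rintro ⟨h1, h2⟩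
    rw [abs_le] at h1 h2
    rcases abs_cases a with ⟨e, -⟩ | ⟨e, -⟩ <;> rcases abs_cases b with ⟨e', -⟩ | ⟨e', -⟩ <;>
      rw [e, e'] <;> linarith

theorem l1_le {δ : ℝ} {v : ℤ × ℤ} {z : ℂ} {c : ℝ} : l1 δ v z ≤ c ↔
    |z.re - z.im - δ * (Vale.Agent.P167.H192.ro v).1| ≤ c ∧
      |z.re + z.im - δ * (Vale.Agent.P167.H192.ro v).2| ≤ c := by
  unfold l1
  rw [abs_add_abs_le]
  have e1 : z.re - δ * v.1 - (z.im - δ * v.2) =
      z.re - z.im - δ * (Vale.Agent.P167.H192.ro v).1 := by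
    unfold Vale.Agent.P167.H192.ro
    push_cast
    ring
  have e2 : z.re - δ * v.1 + (z.im - δ * v.2) =
      z.re + z.im - δ * (Vale.Agent.P167.H192.ro v).2 := by
    unfold Vale.Agent.P167.H192.ro
    push_cast
    ring
  rw [e1, e2]

theorem dist_le_l1 {δ : ℝ} {v : ℤ × ℤ} {z : ℂ} : dist z ((δ : ℂ) * pt v) ≤ l1 δ v z := by
  rw [dist_eq_norm]
  refine (Complex.norm_le_abs_re_add_abs_im _).trans (le_of_eq ?_)
  unfold l1
  simp [pt]

/-- Points of a box. -/
theorem l1_oR {δ : ℝ} (hδ : 0 < δ) {v z : ℤ × ℤ} {R : ℝ} {w : ℂ} (hw : w ∈ oR δ z R) :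
    l1 δ v w ≤ δ * (((nm (z - Vale.Agent.P167.H192.ro v) : ℤ) : ℝ) + R) := by
  obtain ⟨h1, h2⟩ := hw
  obtain ⟨v', hv'⟩ : ∃ v', v' = Vale.Agent.P167.H192.ro v := ⟨_, rfl⟩
  have hn : |z.1 - v'.1| ≤ nm (z - v') ∧ |z.2 - v'.2| ≤ nm (z - v') :=
    ⟨le_max_left _ _, le_max_right _ _⟩
  have g1 : (|(z.1 : ℝ) - v'.1|) ≤ (nm (z - v') : ℤ) := by exact_mod_cast hn.1
  have g2 : (|(z.2 : ℝ) - v'.2|) ≤ (nm (z - v') : ℤ) := by exact_mod_cast hn.2
  rw [l1_le, ← hv']
  have key : ∀ a x y m : ℝ, |a - δ * x| < δ * R → |x - y| ≤ m → |a - δ * y| ≤ δ * (m + R) := by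
    intro a x y m h3 h4
    have e : a - δ * y = (a - δ * x) + δ * (x - y) := by ring
    rw [e]
    refine (abs_add_le _ _).trans ?_
    rw [abs_mul, abs_of_pos hδ]
    have := mul_le_mul_of_nonneg_left h4 hδ.le
    linarith
  exact ⟨key _ _ _ _ h1 g1, key _ _ _ _ h2 g2⟩

section

variable {n : ℕ} {p : ZMod n → ℤ × ℤ} {S : Finset (ℤ × ℤ)} {k M : ℕ} {Rb : ℤ}
  {A : Finset (Sym2 (ℤ × ℤ))} {j : ℕ} {δ : ℝ} {z : ℤ × ℤ} {ρ R : ℕ} {c : ℝ}

theorem region_Om (hδ : 0 < δ) : region δ S ⊆ Om δ S := by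
  intro z hz
  exact ⟨z, hz, by rw [sub_self, abs_zero]; linarith, by rw [sub_self, abs_zero]; linarith⟩

/-- The vertical part of the way. -/
theorem up_seg (H : Loc p S k M Rb) (hδ : 0 < δ) (hc : c + 3 * δ ≤ δ * Rb) {r : ℝ}
    (hz : δ * (((nm (z - Vale.Agent.P167.H192.ro (p k)) : ℤ) : ℝ) + r) ≤ c)
    {u : ℂ} (hu : u ∈ Om δ S) (hur : u ∈ oR δ z r) {s : ℝ} (hs : 0 ≤ s)
    (htop : u.re + u.im + 2 * s < δ * (z.2 + r)) :
    segment ℝ u (u + (s : ℂ) * (1 + Complex.I)) ⊆ Om δ S ∩ oR δ z r := by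
  intro y hy
  rw [segment_eq_image'] at hy
  obtain ⟨t, ht, rfl⟩ := hy
  show u + t • (u + (s : ℂ) * (1 + Complex.I) - u) ∈ _
  have hr : (u + t • (u + (s : ℂ) * (1 + Complex.I) - u)).re = u.re + t * s := by
    rw [add_sub_cancel_left, Complex.real_smul]
    simp
  have hi : (u + t • (u + (s : ℂ) * (1 + Complex.I) - u)).im = u.im + t * s := by
    rw [add_sub_cancel_left, Complex.real_smul]
    simp
  have h0 : 0 ≤ t * s := mul_nonneg ht.1 hs
  have h1 : t * s ≤ s := by nlinarith [ht.2]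
  have hin : u + t • (u + (s : ℂ) * (1 + Complex.I) - u) ∈ oR δ z r := by
    obtain ⟨h2, h3⟩ := hur
    refine ⟨?_, ?_⟩
    · rw [hr, hi, show u.re + t * s - (u.im + t * s) - δ * z.1 = u.re - u.im - δ * z.1 by ring]
      exact h2
    · rw [hr, hi]
      rw [abs_lt] at h3 ⊢
      constructor <;> nlinarith
  refine ⟨?_, hin⟩
  exact H.up_Om hδ hu h0 hr hi ((l1_oR hδ hur).trans hz) ((l1_oR hδ hin).trans hz) hc

/-- **(i)** Points of a box near the target are joined in the box. -/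
theorem joined (H : Loc p S k M Rb) (hδ : 0 < δ) (hc : c + 3 * δ ≤ δ * Rb)
    (hfar : ∀ w ∈ pl p k δ A '' Icc 0 (j : ℝ), c < l1 δ (p k) w)
    (hρ : (ρ : ℝ) / 2 + 5 ≤ R)
    (hz : δ * (((nm (z - Vale.Agent.P167.H192.ro (p k)) : ℤ) : ℝ) + R) ≤ c)
    {u w : ℂ} (hu : u ∈ Dn p k S A j δ) (hw : w ∈ Dn p k S A j δ) (hu' : u ∈ oR δ z (ρ / 2))
    (hw' : w ∈ oR δ z (ρ / 2)) : w ∈ Cn p k S A j δ z R u := by
  have hmono : ∀ {x : ℂ}, x ∈ oR δ z (ρ / 2) → x ∈ oR δ z R := by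
    intro x hx
    obtain ⟨h1, h2⟩ := hx
    have : δ * ((ρ : ℝ) / 2) ≤ δ * R := mul_le_mul_of_nonneg_left (by linarith) hδ.le
    exact ⟨h1.trans_le this, h2.trans_le this⟩
  have hoff : ∀ {x : ℂ}, x ∈ Om δ S ∩ oR δ z R → x ∈ Dn p k S A j δ ∩ oR δ z R := by
    rintro x ⟨h1, h2⟩
    refine ⟨⟨h1, fun h3 => ?_⟩, h2⟩
    have := hfar x h3
    have := (l1_oR (v := p k) hδ h2).trans hz
    linarith
  set Y : ℝ := δ * (z.2 + ρ / 2) + 4 * δ with hY
  have hYR : Y < δ * (z.2 + R) := by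
    rw [hY]
    nlinarith
  have hYlow : ∀ {x : ℂ}, x ∈ Om δ S → x ∈ oR δ z (ρ / 2) → δ * ((ro (p k)).2 + 2) ≤ Y := by
    intro x hx hx'
    have h1 := H.of_mem_Om hδ ((l1_oR hδ (hmono hx')).trans hz) hc hx
    obtain ⟨-, h2⟩ := hx'
    rw [abs_lt] at h2
    rw [hY]
    nlinarith
  have hs : ∀ {x : ℂ}, x ∈ oR δ z (ρ / 2) → 0 ≤ (Y - (x.re + x.im)) / 2 := by
    intro x hx'
    obtain ⟨-, h2⟩ := hx'
    rw [abs_lt] at h2
    rw [hY]
    nlinarith
  have hup : ∀ {x : ℂ}, x ∈ Om δ S → x ∈ oR δ z (ρ / 2) →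
      segment ℝ x (x + (((Y - (x.re + x.im)) / 2 : ℝ) : ℂ) * (1 + Complex.I)) ⊆
        Om δ S ∩ oR δ z R := by
    intro x hx hx'
    exact up_seg H hδ hc hz hx (hmono hx') (hs hx') (by linarith)
  obtain ⟨u', hu1⟩ : ∃ u' : ℂ, u' = u + (((Y - (u.re + u.im)) / 2 : ℝ) : ℂ) * (1 + Complex.I) :=
    ⟨_, rfl⟩
  obtain ⟨w', hw1⟩ : ∃ w' : ℂ, w' = w + (((Y - (w.re + w.im)) / 2 : ℝ) : ℂ) * (1 + Complex.I) :=
    ⟨_, rfl⟩
  have s1 := hup hu.1 hu'
  have s2 := hup hw.1 hw'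
  rw [← hu1] at s1
  rw [← hw1] at s2
  have yu : u'.re + u'.im = Y := by
    rw [hu1]
    simp
    ring
  have yw : w'.re + w'.im = Y := by
    rw [hw1]
    simp
    ring
  have u'R := (s1 (right_mem_segment ℝ _ _)).2
  have w'R := (s2 (right_mem_segment ℝ _ _)).2
  have s3 : segment ℝ u' w' ⊆ Om δ S ∩ oR δ z R := by
    intro y hy
    rw [segment_eq_image'] at hy
    obtain ⟨t, ht, rfl⟩ := hy
    show u' + t • (w' - u') ∈ _
    have hr : (u' + t • (w' - u')).re = (1 - t) * u'.re + t * w'.re := by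
      rw [Complex.real_smul]
      simp
      ring
    have hi : (u' + t • (w' - u')).im = (1 - t) * u'.im + t * w'.im := by
      rw [Complex.real_smul]
      simp
      ring
    have ht0 := ht.1
    have ht1 : 0 ≤ 1 - t := by linarith [ht.2]
    have hin : u' + t • (w' - u') ∈ oR δ z R := by
      obtain ⟨h1, h2⟩ := u'R
      obtain ⟨h3, h4⟩ := w'R
      rw [abs_lt] at h1 h3
      refine ⟨?_, ?_⟩
      · rw [hr, hi, abs_lt]
        rcases eq_or_lt_of_le ht0 with ht' | ht'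
        · rw [← ht']
          constructor <;> linarith
        · constructor <;> nlinarith
      · have e : (u' + t • (w' - u')).re + (u' + t • (w' - u')).im = Y := by
          rw [hr, hi]
          have e1 : (1 - t) * u'.re + t * w'.re + ((1 - t) * u'.im + t * w'.im) =
              (1 - t) * (u'.re + u'.im) + t * (w'.re + w'.im) := by ring
          rw [e1, yu, yw]
          ring
        rw [e]
        rw [yu] at h2
        exact h2
    refine ⟨region_Om hδ (H.mem_Om hδ ((l1_oR hδ hin).trans hz) (by linarith) ?_), hin⟩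
    have e : (u' + t • (w' - u')).re + (u' + t • (w' - u')).im = Y := by
      rw [hr, hi]
      have e1 : (1 - t) * u'.re + t * w'.re + ((1 - t) * u'.im + t * w'.im) =
          (1 - t) * (u'.re + u'.im) + t * (w'.re + w'.im) := by ring
      rw [e1, yu, yw]
      ring
    rw [e]
    exact hYlow hu.1 hu'
  have hT : IsPreconnected (segment ℝ u u' ∪ (segment ℝ u' w' ∪ segment ℝ w' w)) := by
    refine IsPreconnected.union u' (right_mem_segment ℝ _ _)
      (Or.inl (left_mem_segment ℝ _ _)) (convex_segment _ _).isPreconnected ?_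
    exact IsPreconnected.union w' (right_mem_segment ℝ _ _) (left_mem_segment ℝ _ _)
      (convex_segment _ _).isPreconnected (convex_segment _ _).isPreconnected
  refine hT.subset_connectedComponentIn (Or.inl (left_mem_segment ℝ _ _)) ?_
    (Or.inr (Or.inr (right_mem_segment ℝ _ _)))
  intro y hy
  refine hoff ?_
  rcases hy with hy | hy | hy
  · exact s1 hy
  · exact s3 hy
  · rw [segment_symm] at hy
    exact s2 hy

/-! ### the sides near the target -/

theorem l1_tri {v : ℤ × ℤ} {a b : ℂ} {e : ℝ} (h : |a.re - b.re| + |a.im - b.im| ≤ e) :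
    l1 δ v b ≤ l1 δ v a + e := by
  unfold l1
  have h1 := abs_sub_le b.re a.re (δ * v.1)
  have h2 := abs_sub_le b.im a.im (δ * v.2)
  rw [abs_sub_comm b.re a.re] at h1
  rw [abs_sub_comm b.im a.im] at h2
  linarith

/-- Points near a medial edge. -/
theorem near_face (hδ : 0 < δ) {m : Medial} {w : ℂ} (h : w ∈ FB δ (1 / 4) (fc m)) :
    |w.re - δ * m.1.1| + |w.im - δ * m.1.2| ≤ 2 * δ := by
  obtain ⟨⟨x, y⟩, r⟩ := m
  obtain ⟨h1, h2⟩ := h
  have key : ∀ r : Fin 4, |(((face (x, y) r).1 : ℤ) : ℝ) + 1 / 2 - x| ≤ 1 / 2 ∧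
      |(((face (x, y) r).2 : ℤ) : ℝ) + 1 / 2 - y| ≤ 1 / 2 := by
    intro r
    rcases fin4_cases r with rfl | rfl | rfl | rfl
    · have e : face (x, y) 0 = (x, y) := by simp [face]
      rw [e]
      constructor <;> rw [abs_le] <;> constructor <;> linarith
    · have e : face (x, y) 1 = (x - 1, y) := by simp [face, sub_eq_add_neg]
      rw [e]
      push_cast
      constructor <;> rw [abs_le] <;> constructor <;> linarith
    · have e : face (x, y) 2 = (x - 1, y - 1) := by simp [face, sub_eq_add_neg]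
      rw [e]
      push_cast
      constructor <;> rw [abs_le] <;> constructor <;> linarith
    · have e : face (x, y) 3 = (x, y - 1) := by simp [face, sub_eq_add_neg]
      rw [e]
      push_cast
      constructor <;> rw [abs_le] <;> constructor <;> linarith
  obtain ⟨k1, k2⟩ := key r
  have g : ∀ a f v : ℝ, |a - δ * (f + 1 / 2)| ≤ δ * (1 / 4) → |f + 1 / 2 - v| ≤ 1 / 2 →
      |a - δ * v| ≤ δ := by
    intro a f v h3 h4
    have e : a - δ * v = (a - δ * (f + 1 / 2)) + δ * (f + 1 / 2 - v) := by ring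
    rw [e]
    refine (abs_add_le _ _).trans ?_
    rw [abs_mul, abs_of_pos hδ]
    nlinarith
  have g1 := g _ _ _ h1 k1
  have g2 := g _ _ _ h2 k2
  show |w.re - δ * x| + |w.im - δ * y| ≤ 2 * δ
  linarith

theorem near_edge (hδ : 0 < δ) {v : ℤ × ℤ} {r : Fin 4} {w : ℂ}
    (h : w ∈ EB δ (1 / 4) v (v + dir r)) : |w.re - δ * v.1| + |w.im - δ * v.2| ≤ 2 * δ := by
  obtain ⟨h1, h2⟩ := h
  have key : |(((v + dir r).1 : ℤ) : ℝ) - v.1| ≤ 1 ∧ |(((v + dir r).2 : ℤ) : ℝ) - v.2| ≤ 1 := by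
    rcases fin4_cases r with rfl | rfl | rfl | rfl
    · have e : dir 0 = (1, 0) := rfl
      rw [e]; simp
    · have e : dir 1 = (0, 1) := rfl
      rw [e]; simp
    · have e : dir 2 = (-1, 0) := rfl
      rw [e]; simp
    · have e : dir 3 = (0, -1) := rfl
      rw [e]; simp
  have g : ∀ a x y : ℝ, |a - δ * ((x + y) / 2)| ≤ δ * (1 / 4) → |y - x| ≤ 1 →
      |a - δ * x| ≤ δ := by
    intro a x y h3 h4
    have e : a - δ * x = (a - δ * ((x + y) / 2)) + δ / 2 * (y - x) := by ring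
    rw [e]
    refine (abs_add_le _ _).trans ?_
    rw [abs_mul, abs_of_pos (by linarith : 0 < δ / 2)]
    nlinarith
  have g1 := g _ _ _ h1 key.1
  have g2 := g _ _ _ h2 key.2
  linarith

/-- The vertices of the polygon near the target. -/
theorem vert_near (H : Loc p S k M Rb) (hδ : 0 < δ) {i : ℕ} (hi : i < n) {w : ℂ} {e : ℝ}
    (hw : |w.re - δ * (p i).1| + |w.im - δ * (p i).2| ≤ e) (hwc : l1 δ (p k) w ≤ c)
    (hc : c + e ≤ δ * Rb) :
    (k ≤ i → δ * (ro (p k)).1 ≤ δ * (ro (p i)).1) ∧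
    (i < k → δ * (ro (p i)).1 ≤ δ * ((ro (p k)).1 - 1)) ∧
    |((ro (p i)).2 : ℝ) - (ro (p k)).2| ≤ 1 ∧ k ≤ i + M ∧ i ≤ k + M := by
  have h1 : l1 δ (p i) w ≤ e := hw
  rw [l1_le] at h1 hwc
  have g : ∀ a x y : ℝ, |a - δ * x| ≤ e → |a - δ * y| ≤ c → |x - y| ≤ Rb := by
    intro a x y h2 h3
    have e1 : δ * (x - y) = (a - δ * y) - (a - δ * x) := by ring
    have h4 : |δ * (x - y)| ≤ δ * Rb := by
      rw [e1]
      refine (abs_sub _ _).trans ?_
      linarith
    rw [abs_mul, abs_of_pos hδ] at h4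
    exact le_of_mul_le_mul_left h4 hδ
  have g1 := g _ _ _ h1.1 hwc.1
  have g2 := g _ _ _ h1.2 hwc.2
  have g1' : |(ro (p i)).1 - (ro (p k)).1| ≤ Rb := by exact_mod_cast g1
  have g2' : |(ro (p i)).2 - (ro (p k)).2| ≤ Rb := by exact_mod_cast g2
  obtain ⟨m1, m2⟩ := H.near i hi g1' g2'
  have hfw : ∀ m : ℕ, i = k + m → ro (p i) =
      ((ro (p k)).1 + m, (ro (p k)).2 - (if Even m then 0 else 1)) := by
    intro m hm
    have := H.pos_fw m (by omega)
    rw [hm]
    push_cast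
    exact this
  have hbw : ∀ m : ℕ, i + m = k → ro (p i) =
      ((ro (p k)).1 - m, (ro (p k)).2 + (if Even m then 0 else 1)) := by
    intro m hm
    have := H.pos_bw m (by omega)
    have e1 : ((k : ZMod n) - m) = (i : ZMod n) := by
      rw [← hm]
      push_cast
      ring
    rw [e1] at this
    exact this
  refine ⟨fun h => ?_, fun h => ?_, ?_, m1, m2⟩
  · rw [hfw (i - k) (by omega)]
    refine mul_le_mul_of_nonneg_left ?_ hδ.le
    push_cast
    have : (0 : ℝ) ≤ ((i - k : ℕ) : ℝ) := Nat.cast_nonneg _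
    linarith
  · rw [hbw (k - i) (by omega)]
    refine mul_le_mul_of_nonneg_left ?_ hδ.le
    push_cast
    have : (1 : ℝ) ≤ ((k - i : ℕ) : ℝ) := by
      have : 1 ≤ k - i := by omega
      exact_mod_cast this
    linarith
  · rcases le_or_gt k i with h | h
    · rw [hfw (i - k) (by omega)]
      push_cast
      split_ifs <;> norm_num
    · rw [hbw (k - i) (by omega)]
      push_cast
      split_ifs <;> norm_num

end

end Vale.Agent.P167.H825.B4
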