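import Vale.Agent.P167.H825.B4.Loc
import Vale.Agent.P167.XDL.Geo

/-!
# P167, general `q`, [BAD], (B4): the sides near the target
-/

set_option autoImplicit false

open Set Metric

namespace Vale.Agent.P167.H825.B4

open Vale.Agent.P167.E6 Vale.Agent.P167.E2 Vale.Agent.P167.H192
open Vale.Agent.P167.H918 (Loc)
open Vale.Agent.P167.H713.Q (oR Dn Cn Sd tip Cfl Bad)
open Vale.Agent.P167.H634 (RO LO RX VB FB EB Bx Dm SqD)
open Vale.Agent.P167.Fjord (Wd)

variable {n : ℕ} {p : ZMod n → ℤ × ℤ} {S : Finset (ℤ × ℤ)} {k M : ℕ} {Rb : ℤ}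
  {A : Finset (Sym2 (ℤ × ℤ))} {j : ℕ} {δ : ℝ} {z : ℤ × ℤ} {ρ R : ℕ} {c : ℝ}

/-- The `X` coordinate of a point near a vertex. -/
theorem X_near {v : ℤ × ℤ} {w : ℂ} {e : ℝ} (h : |w.re - δ * v.1| + |w.im - δ * v.2| ≤ e) :
    |w.re - w.im - δ * (Vale.Agent.P167.H192.ro v).1| ≤ e ∧
      |w.re + w.im - δ * (Vale.Agent.P167.H192.ro v).2| ≤ e := (l1_le (δ := δ) (v := v)).1 h

theorem box_l1 {v : ℤ × ℤ} {w : ℂ} {a : ℝ} (h : w ∈ VB δ a v) :
    |w.re - δ * v.1| + |w.im - δ * v.2| ≤ 2 * (δ * a) := by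
  obtain ⟨h1, h2⟩ := h
  linarith

/-- Points of the right side near the target are left of the target. -/
theorem RO_near (H : Loc p S k M Rb) (hδ : 0 < δ) {τ : ℕ} {w : ℂ} (hw : w ∈ RO p k S A δ τ)
    (hwc : l1 δ (p k) w ≤ c) (hc : c + δ ≤ δ * Rb)
    (hrun : ∀ i ≤ τ, c + 2 * δ < l1 δ (p k) ((δ : ℂ) * pt (run p k A i).1)) :
    w.re - w.im ≤ δ * (Vale.Agent.P167.H192.ro (p k)).1 := by
  have hk2 := H.hk2
  have hex : ∀ {i : ℕ}, i ≤ τ →
      |w.re - δ * (run p k A i).1.1| + |w.im - δ * (run p k A i).1.2| ≤ 2 * δ → False := by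
    intro i hi h
    have h1 := hrun i hi
    have h2 := l1_tri (δ := δ) (v := p k) (a := w) (b := (δ : ℂ) * pt (run p k A i).1)
      (e := 2 * δ) (by
        have e1 : ((δ : ℂ) * pt (run p k A i).1).re = δ * (run p k A i).1.1 := by simp [pt]
        have e2 : ((δ : ℂ) * pt (run p k A i).1).im = δ * (run p k A i).1.2 := by simp [pt]
        rw [e1, e2]
        exact h)
    linarith
  rcases hw with ⟨i, hi, -, h⟩ | ⟨i, hi, -, -, h⟩ | ⟨-, h⟩
  · exact (hex hi (near_face hδ h)).elim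
  · exact (hex hi.le (near_edge hδ h)).elim
  · rcases h with ⟨i, hi, h⟩ | ⟨i, hi, he, h⟩
    · have h1 := box_l1 h
      have h2 := (vert_near H hδ (i := i) (by omega) (e := δ) (by linarith) hwc hc).2.1 hi
      have h3 := (X_near h1).1
      rw [abs_le] at h3
      nlinarith
    · have h1 : |w.re - δ * (p i).1| + |w.im - δ * (p i).2| ≤ δ := by
        obtain ⟨r, hr⟩ := H.poly.2.2 (i : ZMod n)
        have h' : |w.re - δ * (((p i).1 + (p (i + 1)).1) / 2)| +
          |w.im - δ * (((p i).2 + (p (i + 1)).2) / 2)| ≤ δ / 2 := h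
        rw [hr] at h'
        have key : |(((p i + dir r).1 : ℤ) : ℝ) - (p i).1| + |(((p i + dir r).2 : ℤ) : ℝ) - (p i).2| ≤
            1 := by
          rcases fin4_cases r with rfl | rfl | rfl | rfl
          · have e : dir 0 = (1, 0) := rfl
            rw [e]; simp
          · have e : dir 1 = (0, 1) := rfl
            rw [e]; simp
          · have e : dir 2 = (-1, 0) := rfl
            rw [e]; simp
          · have e : dir 3 = (0, -1) := rfl
            rw [e]; simp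
        have g : ∀ a x y : ℝ, |a - δ * x| ≤ |a - δ * ((x + y) / 2)| + δ / 2 * |y - x| := by
          intro a x y
          have e : a - δ * x = (a - δ * ((x + y) / 2)) + δ / 2 * (y - x) := by ring
          rw [e]
          refine (abs_add_le _ _).trans ?_
          rw [abs_mul, abs_of_pos (by linarith : 0 < δ / 2)]
        have g1 := g w.re (p i).1 ((p i + dir r).1 : ℤ)
        have g2 := g w.im (p i).2 ((p i + dir r).2 : ℤ)
        nlinarith
      obtain ⟨a1, a2, -, -, a3⟩ := vert_near H hδ hi h1 hwc hc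
      have hik : i < k := by
        by_contra hcon
        push Not at hcon
        exact he ⟨i, hcon, by omega, rfl⟩
      have h2 := a2 hik
      have h3 := (X_near h1).1
      rw [abs_le] at h3
      nlinarith

/-- Points of the left side near the target are right of the target and near the boundary. -/
theorem LO_near (H : Loc p S k M Rb) (hδ : 0 < δ) {τ : ℕ} {w : ℂ} (hw : w ∈ LO p k A δ τ)
    (hwc : l1 δ (p k) w ≤ c) (hc : c + 2 * δ ≤ δ * Rb)
    (hrun : ∀ i ≤ τ, c + 2 * δ < l1 δ (p k) ((δ : ℂ) * pt (run p k A i).1)) :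
    δ * ((Vale.Agent.P167.H192.ro (p k)).1 - 2) ≤ w.re - w.im ∧
      |w.re + w.im - δ * (Vale.Agent.P167.H192.ro (p k)).2| ≤ 3 * δ := by
  have hex : ∀ {i : ℕ}, i ≤ τ →
      |w.re - δ * (run p k A i).1.1| + |w.im - δ * (run p k A i).1.2| ≤ 2 * δ → False := by
    intro i hi h
    have h1 := hrun i hi
    have h2 := l1_tri (δ := δ) (v := p k) (a := w) (b := (δ : ℂ) * pt (run p k A i).1)
      (e := 2 * δ) (by
        have e1 : ((δ : ℂ) * pt (run p k A i).1).re = δ * (run p k A i).1.1 := by simp [pt]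
        have e2 : ((δ : ℂ) * pt (run p k A i).1).im = δ * (run p k A i).1.2 := by simp [pt]
        rw [e1, e2]
        exact h)
    linarith
  have fin : ∀ {i : ℕ}, k ≤ i → i < n → |w.re - δ * (p i).1| + |w.im - δ * (p i).2| ≤ 2 * δ →
      δ * ((Vale.Agent.P167.H192.ro (p k)).1 - 2) ≤ w.re - w.im ∧
      |w.re + w.im - δ * (Vale.Agent.P167.H192.ro (p k)).2| ≤ 3 * δ := by
    intro i hk hi h1
    obtain ⟨a1, -, a2, -, -⟩ := vert_near H hδ hi h1 hwc hc
    have h2 := a1 hk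
    obtain ⟨h3, h4⟩ := X_near h1
    rw [abs_le] at h3
    refine ⟨by nlinarith, ?_⟩
    have e : w.re + w.im - δ * (Vale.Agent.P167.H192.ro (p k)).2 =
      (w.re + w.im - δ * (Vale.Agent.P167.H192.ro (p i)).2) +
        δ * (((Vale.Agent.P167.H192.ro (p i)).2 : ℝ) - (Vale.Agent.P167.H192.ro (p k)).2) := by
      ring
    rw [e]
    refine (abs_add_le _ _).trans ?_
    rw [abs_mul, abs_of_pos hδ]
    nlinarith
  rcases hw with ⟨i, hi, h⟩ | ⟨i, hk, hi, h⟩ | ⟨i, hi, -, h⟩ | ⟨i, hk, hi, h⟩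
  · have := box_l1 h
    exact (hex hi (by linarith)).elim
  · have := box_l1 h
    exact fin hk hi (by linarith)
  · exact (hex hi.le (near_edge hδ h)).elim
  · obtain ⟨r, hr⟩ := H.poly.2.2 (i : ZMod n)
    rw [hr] at h
    exact fin hk (by omega) (near_edge hδ h)

/-- **(ii)** Near the target a component in a box which does not contain the target sees at most one
side. -/
theorem one_side (H : Loc p S k M Rb) (hδ : 0 < δ) (hc : c + 3 * δ ≤ δ * Rb)
    (hrun : ∀ i ≤ j - 1, c + 2 * δ < l1 δ (p k) ((δ : ℂ) * pt (run p k A i).1))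
    (hz : δ * (((nm (z - Vale.Agent.P167.H192.ro (p k)) : ℤ) : ℝ) + ρ) ≤ c)
    (hzb : (ρ : ℤ) + 4 < nm (z - Vale.Agent.P167.H192.ro (p k))) (x : ℂ) :
    Disjoint (Cn p k S A j δ z ρ x) (Sd p k S A j δ true) ∨
      Disjoint (Cn p k S A j δ z ρ x) (Sd p k S A j δ false) := by
  by_contra hcon
  push Not at hcon
  obtain ⟨h1, h2⟩ := hcon
  rw [not_disjoint_iff] at h1 h2
  obtain ⟨u, hu, hu'⟩ := h1
  obtain ⟨w, hw, hw'⟩ := h2
  have hub := (connectedComponentIn_subset _ _ hu).2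
  have hwb := (connectedComponentIn_subset _ _ hw).2
  have g1 : u.re - u.im ≤ δ * (Vale.Agent.P167.H192.ro (p k)).1 :=
    RO_near H hδ hu' ((l1_oR hδ hub).trans hz) (by linarith) hrun
  obtain ⟨g2, g3⟩ : δ * ((Vale.Agent.P167.H192.ro (p k)).1 - 2) ≤ w.re - w.im ∧
      |w.re + w.im - δ * (Vale.Agent.P167.H192.ro (p k)).2| ≤ 3 * δ :=
    LO_near H hδ hw' ((l1_oR hδ hwb).trans hz) (by linarith) hrun
  obtain ⟨b1, b2⟩ := hub
  obtain ⟨b3, b4⟩ := hwb
  rw [abs_lt] at b1 b3 b4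
  rw [abs_le] at g3
  obtain ⟨v, hv⟩ : ∃ v, v = Vale.Agent.P167.H192.ro (p k) := ⟨_, rfl⟩
  rw [← hv] at g1 g2 g3 hzb
  have key : ∀ a b : ℝ, δ * a < δ * b → a < b := fun a b h => lt_of_mul_lt_mul_left h hδ.le
  have c1 : (z.1 : ℝ) < v.1 + ρ := key _ _ (by linarith)
  have c2 : (v.1 : ℝ) < z.1 + ρ + 2 := key _ _ (by linarith)
  have c3 : (z.2 : ℝ) < v.2 + ρ + 3 := key _ _ (by linarith)
  have c4 : (v.2 : ℝ) < z.2 + ρ + 3 := key _ _ (by linarith)
  have d1 : z.1 < v.1 + ρ := by exact_mod_cast c1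
  have d2 : v.1 < z.1 + ρ + 2 := by exact_mod_cast c2
  have d3 : z.2 < v.2 + ρ + 3 := by exact_mod_cast c3
  have d4 : v.2 < z.2 + ρ + 3 := by exact_mod_cast c4
  have : nm (z - v) ≤ (ρ : ℤ) + 4 := by
    unfold nm
    simp only [Prod.fst_sub, Prod.snd_sub]
    rw [max_le_iff, abs_le, abs_le]
    omega
  omega

/-- **(iii)** The squares of `Bad` are not near the target. -/
theorem bad_far (H : Loc p S k M Rb) (hδ : 0 < δ) (hc : c + 3 * δ ≤ δ * Rb)
    (hfar : ∀ w ∈ pl p k δ A '' Icc 0 (j : ℝ), c < l1 δ (p k) w)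
    (hρ : (ρ : ℝ) / 2 + 5 ≤ R) (hρR : ρ ≤ R) {b : Bool} {x : ℤ × ℤ}
    (hx : x ∈ Bad p k S A j δ b ρ R) :
    c < δ * (((nm (x - Vale.Agent.P167.H192.ro (p k)) : ℤ) : ℝ) + 2 * R + 1) := by
  classical
  unfold Bad at hx
  obtain ⟨-, z, u, w, -, hC, y, hy, hyC⟩ := Finset.mem_filter.1 hx
  by_contra hcon
  push Not at hcon
  refine hC.nj (joined H hδ hc hfar hρ ?_ hC.u_mem hC.w_mem hC.u_reg hC.w_reg)
  refine le_trans (mul_le_mul_of_nonneg_left ?_ hδ.le) hcon
  have hyb := (connectedComponentIn_subset _ _ hyC).2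
  obtain ⟨y1, y2⟩ := hyb
  have hsq : (x.1 : ℝ) ≤ (y / δ).re - (y / δ).im ∧ (y / δ).re - (y / δ).im ≤ x.1 + 1 ∧
      (x.2 : ℝ) ≤ (y / δ).re + (y / δ).im ∧ (y / δ).re + (y / δ).im ≤ x.2 + 1 := by
    obtain ⟨⟨h1, h2⟩, h3, h4⟩ := hy
    refine ⟨?_, ?_, ?_, ?_⟩ <;> assumption
  have e1 : (y / δ).re = y.re / δ := by rw [Complex.div_ofReal_re]
  have e2 : (y / δ).im = y.im / δ := by rw [Complex.div_ofReal_im]
  rw [e1, e2] at hsq
  obtain ⟨s1, s2, s3, s4⟩ := hsq
  have f1 : y.re / δ - y.im / δ = (y.re - y.im) / δ := by ring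
  have f2 : y.re / δ + y.im / δ = (y.re + y.im) / δ := by ring
  rw [f1, le_div_iff₀ hδ] at s1
  rw [f1, div_le_iff₀ hδ] at s2
  rw [f2, le_div_iff₀ hδ] at s3
  rw [f2, div_le_iff₀ hδ] at s4
  rw [abs_lt] at y1 y2
  have key : ∀ a b : ℝ, δ * a < δ * b → a < b := fun a b h => lt_of_mul_lt_mul_left h hδ.le
  have c1 : (z.1 : ℝ) < x.1 + 1 + ρ := key _ _ (by linarith)
  have c2 : (x.1 : ℝ) < z.1 + ρ := key _ _ (by linarith)
  have c3 : (z.2 : ℝ) < x.2 + 1 + ρ := key _ _ (by linarith)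
  have c4 : (x.2 : ℝ) < z.2 + ρ := key _ _ (by linarith)
  have d1 : z.1 < x.1 + 1 + ρ := by exact_mod_cast c1
  have d2 : x.1 < z.1 + ρ := by exact_mod_cast c2
  have d3 : z.2 < x.2 + 1 + ρ := by exact_mod_cast c3
  have d4 : x.2 < z.2 + ρ := by exact_mod_cast c4
  have h5 : nm (z - Vale.Agent.P167.H192.ro (p k)) ≤
      nm (x - Vale.Agent.P167.H192.ro (p k)) + R + 1 := by
    have h6 := Enl.nm_tri z x (Vale.Agent.P167.H192.ro (p k))
    have h7 : nm (z - x) ≤ (R : ℤ) + 1 := by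
      unfold nm
      simp only [Prod.fst_sub, Prod.snd_sub]
      rw [max_le_iff, abs_le, abs_le]
      omega
    omega
  have h8 : ((nm (z - Vale.Agent.P167.H192.ro (p k)) : ℤ) : ℝ) ≤
      ((nm (x - Vale.Agent.P167.H192.ro (p k)) : ℤ) : ℝ) + R + 1 := by exact_mod_cast h5
  linarith

end Vale.Agent.P167.H825.B4
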